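import Crest.Agent.X262.Wd54.Gx
import Crest.Agent.X262.Hb.Defs
import Crest.Agent.X262.Vb10.Amal
import Crest.Agent.X277.Cns.Lift

/-!
# Row 262, road B (helper12): finite extensions of the factors of a product field

* `isPF_of_prd`, `prd_of_isPF` : `Hb.Prd` and `IsPF` agree for finitely generated fields;
* `deg_pf`                     : the degree of a product of finite extensions;
* `exists_amal2`.
-/

set_option autoImplicit false

noncomputable section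

namespace Crest.Agent.X262.Am12

open scoped TensorProduct
open Crest.Agent.X277 Crest.Agent.X277.BD Crest.Agent.X262.Hb Crest.Agent.X262.Wd
open Crest.Agent.R274.Prod1_134 Algebra.TensorProduct Set

variable {K₁ K₂ K L₁ L₂ L : Type} [Field K₁] [Algebra ℂ K₁] [Field K₂] [Algebra ℂ K₂] [Field K]
  [Algebra ℂ K] [Field L₁] [Algebra ℂ L₁] [Field L₂] [Algebra ℂ L₂] [Field L] [Algebra ℂ L]
  {a₁ : K₁ →ₐ[ℂ] K} {a₂ : K₂ →ₐ[ℂ] K}

theorem sup_eq_adjoin (a₁ : K₁ →ₐ[ℂ] K) (a₂ : K₂ →ₐ[ℂ] K) :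
    a₁.fieldRange ⊔ a₂.fieldRange = IntermediateField.adjoin ℂ (range a₁ ∪ range a₂) :=
  IntermediateField.sup_def _ _

theorem prd_of_isPF [Algebra.EssFiniteType ℂ K₁] [Algebra.EssFiniteType ℂ K₂] (h : IsPF a₁ a₂) :
    Prd a₁ a₂ := ⟨dim_pf h, (sup_eq_adjoin a₁ a₂).trans h.adjoin_eq⟩

theorem isPF_of_prd [Algebra.EssFiniteType ℂ K₁] [Algebra.EssFiniteType ℂ K₂]
    [Algebra.EssFiniteType ℂ K] (h : Prd a₁ a₂) : IsPF a₁ a₂ := by
  obtain ⟨s, hs⟩ := exists_tb ℂ K₁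
  obtain ⟨t, ht⟩ := exists_tb ℂ K₂
  have h1 := (sup_eq_adjoin a₁ a₂).symm.trans h.2
  refine isPF_of_adjoin (inj_of_algInd hs.isAlgebraic ht.isAlgebraic ?_) h1
  let R := Algebra.adjoin ℂ (range (Sum.elim (a₁ ∘ s) (a₂ ∘ t)))
  have h2 : ∀ z ∈ Algebra.adjoin ℂ (range a₁ ∪ range a₂), IsAlgebraic R z := fun z hz => by
    induction hz using Algebra.adjoin_induction with
    | mem x hx =>
      rcases hx with ⟨x, rfl⟩ | ⟨x, rfl⟩
      · exact isAlg_map a₁ a₁.injective (by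
          rintro _ ⟨_, ⟨i, rfl⟩, rfl⟩
          exact Algebra.subset_adjoin ⟨Sum.inl i, rfl⟩) (hs.isAlgebraic.1 x)
      · exact isAlg_map a₂ a₂.injective (by
          rintro _ ⟨_, ⟨i, rfl⟩, rfl⟩
          exact Algebra.subset_adjoin ⟨Sum.inr i, rfl⟩) (ht.isAlgebraic.1 x)
    | algebraMap c => exact isAlgebraic_algebraMap (algebraMap ℂ R c)
    | add x y _ _ hx hy => exact hx.add hy
    | mul x y _ _ hx hy => exact hx.mul hy
  have : Algebra.IsAlgebraic R K := ⟨fun x => by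
    obtain ⟨p, hp, q, hq, rfl⟩ := IntermediateField.mem_adjoin_iff_div.1
      (h1 ▸ IntermediateField.mem_top (x := x))
    rw [div_eq_mul_inv]
    exact (h2 p hp).mul (h2 q hq).inv⟩
  refine (Algebra.IsAlgebraic.isTranscendenceBasis_of_lift_le_trdeg_of_finite ℂ _ ?_).1
  rw [trdeg_eq_dim, h.1]
  simp

/-- the degree of a product of finite extensions -/
theorem deg_pf (h : IsPF a₁ a₂) {α₁ : L₁ →ₐ[ℂ] L} {α₂ : L₂ →ₐ[ℂ] L} (h' : IsPF α₁ α₂)
    {θ₁ : K₁ →ₐ[ℂ] L₁} {θ₂ : K₂ →ₐ[ℂ] L₂} {θ : K →ₐ[ℂ] L} (e₁ : ∀ x, θ (a₁ x) = α₁ (θ₁ x))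
    (e₂ : ∀ x, θ (a₂ x) = α₂ (θ₂ x)) (h₁ : 0 < deg θ₁) (h₂ : 0 < deg θ₂) :
    deg θ = deg θ₁ * deg θ₂ := by
  classical
  let _ := θ₁.toRingHom.toAlgebra
  let _ := θ₂.toRingHom.toAlgebra
  let _ := θ.toRingHom.toAlgebra
  have : IsScalarTower ℂ K₁ L₁ := IsScalarTower.of_algebraMap_eq fun c => (θ₁.commutes c).symm
  have : IsScalarTower ℂ K₂ L₂ := IsScalarTower.of_algebraMap_eq fun c => (θ₂.commutes c).symm
  have : Module.Finite K₁ L₁ := Module.finite_of_finrank_pos h₁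
  have : Module.Finite K₂ L₂ := Module.finite_of_finrank_pos h₂
  let e := Module.finBasis K₁ L₁
  let f := Module.finBasis K₂ L₂
  let u : Fin (Module.finrank K₁ L₁) × Fin (Module.finrank K₂ L₂) → L :=
    fun p => α₁ (e p.1) * α₂ (f p.2)
  have hθ : ∀ z, θ (productMap a₁ a₂ z) = productMap α₁ α₂ (map θ₁ θ₂ z) := fun z => by
    induction z with
    | zero => simp
    | tmul x y => simp [e₁, e₂]
    | add x y hx hy => simp only [map_add, hx, hy]
  have h3 : LinearIndependent K u := by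
    have : IsDomain (K₁ ⊗[ℂ] K₂) := isDomain_tensor
    let _ := (productMap a₁ a₂).toRingHom.toAlgebra
    let _ := (θ.comp (productMap a₁ a₂)).toRingHom.toAlgebra
    have : IsScalarTower (K₁ ⊗[ℂ] K₂) K L := IsScalarTower.of_algebraMap_eq fun _ => rfl
    have : FaithfulSMul (K₁ ⊗[ℂ] K₂) K := (faithfulSMul_iff_algebraMap_injective _ _).2 h.inj
    have : IsFractionRing (K₁ ⊗[ℂ] K₂) K := IsFractionRing.of_field _ _ fun x => by
      obtain ⟨_, ⟨p, rfl⟩, _, ⟨q, rfl⟩, -, rfl⟩ := h.frac x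
      exact ⟨p, q, rfl⟩
    refine (LinearIndependent.iff_fractionRing (K₁ ⊗[ℂ] K₂) K).1
      (Fintype.linearIndependent_iff.2 fun z hz p => ?_)
    have h4 : ∑ q, map θ₁ θ₂ (z q) * e q.1 ⊗ₜ[ℂ] f q.2 = 0 := h'.inj (by
      rw [map_zero, map_sum, ← hz]
      refine Finset.sum_congr rfl fun q _ => ?_
      rw [map_mul, ← hθ, productMap_apply_tmul]
      rfl)
    let Φ := TensorProduct.map ((e.coord p.1).restrictScalars ℂ) ((f.coord p.2).restrictScalars ℂ)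
    have h5 : ∀ q w, Φ (map θ₁ θ₂ w * e q.1 ⊗ₜ[ℂ] f q.2) = if q = p then w else 0 :=
      fun (q : Fin _ × Fin _) w => by
        induction w with
        | zero => simp
        | tmul x y =>
          have h6 : e.coord p.1 (θ₁ x * e q.1) = if q.1 = p.1 then x else 0 := by
            rw [show θ₁ x * e q.1 = x • e q.1 from rfl, map_smul]
            simp [Finsupp.single_apply]
          have h7 : f.coord p.2 (θ₂ y * f q.2) = if q.2 = p.2 then y else 0 := by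
            rw [show θ₂ y * f q.2 = y • f q.2 from rfl, map_smul]
            simp [Finsupp.single_apply]
          simp only [Φ, map_tmul, tmul_mul_tmul, TensorProduct.map_tmul,
            LinearMap.restrictScalars_apply, h6, h7, Prod.ext_iff]
          split_ifs <;> simp_all
        | add x y hx hy =>
          rw [map_add, add_mul, map_add, hx, hy]
          split_ifs <;> simp
    have h8 := congrArg Φ h4
    simpa [map_sum, h5] using h8
  let N := Submodule.span K (range u)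
  have h4 : ∀ x y, α₁ x * α₂ y ∈ N := fun x y => by
    rw [← e.sum_repr x, ← f.sum_repr y, map_sum, map_sum, Finset.sum_mul_sum]
    refine sum_mem fun i _ => sum_mem fun j _ => ?_
    have h5 : α₁ (e.repr x i • e i) * α₂ (f.repr y j • f j) =
        (a₁ (e.repr x i) * a₂ (f.repr y j)) • u (i, j) := by
      change α₁ (θ₁ _ * _) * α₂ (θ₂ _ * _) = θ _ * (α₁ _ * α₂ _)
      rw [map_mul, map_mul, map_mul, e₁, e₂, mul_mul_mul_comm]
    rw [h5]
    exact N.smul_mem _ (Submodule.subset_span ⟨_, rfl⟩)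
  have h5 : N * N ≤ N := by
    rw [Submodule.span_mul_span, Submodule.span_le]
    rintro _ ⟨_, ⟨p, rfl⟩, _, ⟨q, rfl⟩, rfl⟩
    simpa only [u, map_mul, mul_mul_mul_comm, SetLike.mem_coe] using
      h4 (e p.1 * e q.1) (f p.2 * f q.2)
  let S : Subalgebra K L := N.toSubalgebra (by simpa using h4 1 1)
    fun x y hx hy => h5 (Submodule.mul_mem_mul hx hy)
  have h6 : ∀ z ∈ (productMap α₁ α₂).range, z ∈ S := by
    rintro _ ⟨z, rfl⟩
    induction z with
    | zero => rw [map_zero]; exact zero_mem _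
    | tmul x y => exact h4 x y
    | add x y hx hy => rw [map_add]; exact add_mem hx hy
  have h7 : ⊤ ≤ N := fun x _ => by
    obtain ⟨p, hp, q, hq, -, rfl⟩ := h'.frac x
    rw [div_eq_mul_inv]
    exact S.mul_mem (h6 p hp) (S.inv_mem_of_algebraic (x := ⟨q, h6 q hq⟩)
      (IsIntegral.of_mem_of_fg S (Submodule.fg_span (finite_range u)) q (h6 q hq)).isAlgebraic)
  have h8 := Module.finrank_eq_card_basis (Module.Basis.mk h3 h7)
  rw [Fintype.card_prod, Fintype.card_fin, Fintype.card_fin] at h8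
  exact h8

/-- finite extensions of the two factors of a product field -/
theorem exists_amal2 [Algebra.EssFiniteType ℂ K₁] [Algebra.EssFiniteType ℂ K₂]
    [Algebra.EssFiniteType ℂ K] (h : Prd a₁ a₂) (θ₁ : K₁ →ₐ[ℂ] L₁) (θ₂ : K₂ →ₐ[ℂ] L₂)
    (h₁ : 0 < deg θ₁) (h₂ : 0 < deg θ₂) :
    ∃ (L : Type) (_ : Field L) (_ : Algebra ℂ L) (_ : Algebra.EssFiniteType ℂ L)
      (α₁ : L₁ →ₐ[ℂ] L) (α₂ : L₂ →ₐ[ℂ] L) (θ : K →ₐ[ℂ] L), Prd α₁ α₂ ∧ α₁.comp θ₁ = θ.comp a₁ ∧
      α₂.comp θ₂ = θ.comp a₂ ∧ deg θ = deg θ₁ * deg θ₂ := by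
  have := Vb10.eft_of_deg θ₁ h₁
  have := Vb10.eft_of_deg θ₂ h₂
  have h1 := isPF_of_prd h
  have h2 := isPF ℂ L₁ L₂
  exact ⟨PF ℂ L₁ L₂, inferInstance, inferInstance, essFT_pf h2, _, _, Cns.pfMap h1 h2 θ₁ θ₂,
    prd_of_isPF h2, AlgHom.ext fun x => (Cns.pfMap_left h1 h2 θ₁ θ₂ x).symm,
    AlgHom.ext fun x => (Cns.pfMap_right h1 h2 θ₁ θ₂ x).symm,
    deg_pf h1 h2 (Cns.pfMap_left h1 h2 θ₁ θ₂) (Cns.pfMap_right h1 h2 θ₁ θ₂) h₁ h₂⟩

end Crest.Agent.X262.Am12
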